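import Crest.Agent.X262.Pg58.Hol
import Crest.Agent.X262.Kah.ClsT
import Crest.Agent.X277.AN.G1Core

/-!
# X262 / Pg60 (helper60): `PG` for the de Rham theory
-/

set_option autoImplicit false

open Set Module

noncomputable section

namespace Crest.Agent.X262.Pg60

open Crest.Agent.X277 Crest.Agent.X277.Lef Crest.Agent.X277.AN.G1 Crest.Agent.X277.BD
open Crest.Agent.X262.Coh Crest.Agent.X262.Man Crest.Agent.X262.Kah

/-- **top holomorphic forms are the sections of the canonical divisor** -/
theorem pg (c1 : ∀ X : SV, BD ℂ X.F → HP X.P) (Lam : ∀ X : SV, AddSubgroup (HP X.P)) :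
    (thOf typP c1 Lam).PG := fun X k b => by
  obtain ⟨A⟩ := nonempty_AnP X.P b
  have h1 := A.finrank_HS_KO b 1 0
  rw [pow_one, zpow_zero, mul_one, ← Br.Sec_k, one_smul] at h1
  rw [← h1]
  exact Pg58.finrank_typ (emb A) A.PA (even_two_mul k) fun c => by
    change c ∈ typP X (2 * k) 0 ↔ _
    rw [typP_eq X A]
    rfl

end Crest.Agent.X262.Pg60
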